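import Vale.Agent.P038.H108.Star

/-!
# Inner and outer pairs of families; the cheapest inner pair is at most as expensive as the cheapest
outer pair
-/

namespace Vale.Agent.P038.H108

open Finset

variable {V : Type*} [Fintype V]

/-- Inner pairs of families. -/
structure Inner (R : V → V → Prop) (X Y : V → Finset V) : Prop where
  memX : ∀ a, a ∈ X a
  memY : ∀ a, a ∈ Y a
  comp : ∀ a b, b ∈ Nb R (X a) → a ∈ Nb R (Y b) → a = b

/-- Outer pairs of families. -/
structure Outer (R : V → V → Prop) (B C : V → Finset V) : Prop where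
  memB : ∀ a y, R a y → y ∈ B a
  memC : ∀ a y, R a y → y ∈ C a
  comp : ∀ a b, b ∈ B a → a ∈ C b → a = b

/-- Energy of a pair of families. -/
noncomputable def En (R : V → V → Prop) (X Y : V → Finset V) : ℕ :=
  ∑ a, c R (X a) + ∑ a, c R (Y a)

theorem sum_update [DecidableEq V] (f : Finset V → ℕ) (B : V → Finset V) (a : V) (S : Finset V) :
    ∑ x, f (Function.update B a S x) + f (B a) = ∑ x, f (B x) + f S := by
  classical
  have h1 := Finset.add_sum_erase Finset.univ (fun x => f (Function.update B a S x))
    (Finset.mem_univ a)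
  have h2 := Finset.add_sum_erase Finset.univ (fun x => f (B x)) (Finset.mem_univ a)
  have h3 : ∑ x ∈ Finset.univ.erase a, f (Function.update B a S x) =
      ∑ x ∈ Finset.univ.erase a, f (B x) := by
    refine Finset.sum_congr rfl fun x hx => ?_
    rw [Function.update_of_ne (Finset.ne_of_mem_erase hx)]
  simp only [Function.update_self] at h1
  omega

theorem inner_of_outer {R : V → V → Prop} (hR : ∀ x, R x x) {B C : V → Finset V}
    (h : Outer R B C) : Inner R (Er R B) (Er R C) := by
  refine ⟨fun a => mem_Er.2 fun s hs => h.memB s a hs, fun a => mem_Er.2 fun s hs => h.memC s a hs,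
    fun a b hb ha => ?_⟩
  obtain ⟨x, hx, hxb⟩ := mem_Nb.1 hb
  obtain ⟨y, hy, hya⟩ := mem_Nb.1 ha
  have h1 : x ∈ B y := mem_Er.1 hx y hya
  have h2 : y ∈ C x := mem_Er.1 hy x hxb
  have h3 : y = x := h.comp y x h1 h2
  subst h3
  -- now `y ∈ Er B a`, `y ∈ Er C b`, `R y b`, `R y a`
  have h4 : y ∈ B a := mem_Er.1 hx a (hR a)
  have h5 : a ∈ C y := h.memC y a hya
  have h6 : a = y := h.comp a y h4 h5
  have h7 : y ∈ C b := mem_Er.1 hy b (hR b)
  have h8 : b ∈ B y := h.memB y b hxb
  have h9 : y = b := h.comp y b h8 h7
  exact h6.trans h9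

theorem rot {R : V → V → Prop} (hR : ∀ x, R x x) {B C : V → Finset V}
    (h : Outer R B C) (hmin : ∀ B' C', Outer R B' C' → En R B C ≤ En R B' C') :
    En R (Er R B) (Er R C) ≤ En R B C := by
  classical
  -- the upper family
  set U : V → Finset V := fun a => Finset.univ.filter fun b => b = a ∨ a ∉ C b with hU
  have memU : ∀ {a b}, b ∈ U a ↔ (b = a ∨ a ∉ C b) := by
    intro a b
    simp [hU]
  have hLU : ∀ a, B a ⊆ U a := by
    intro a b hb
    rw [memU]
    by_cases hab : a ∈ C b
    · exact Or.inl (h.comp a b hb hab).symm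
    · exact Or.inr hab
  have hrow : ∀ a S, B a ⊆ S → S ⊆ U a → c R (B a) ≤ c R S := by
    intro a S h1 h2
    have ho : Outer R (Function.update B a S) C := by
      refine ⟨?_, h.memC, ?_⟩
      · intro a' y hy
        by_cases ha : a' = a
        · subst ha
          rw [Function.update_self]
          exact h1 (h.memB _ _ hy)
        · rw [Function.update_of_ne ha]
          exact h.memB _ _ hy
      · intro a' b hb hab
        by_cases ha : a' = a
        · subst ha
          rw [Function.update_self] at hb
          rcases memU.1 (h2 hb) with h3 | h3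
          · exact h3.symm
          · exact absurd hab h3
        · rw [Function.update_of_ne ha] at hb
          exact h.comp _ _ hb hab
    have h3 := hmin _ _ ho
    have h4 := sum_update (c R) B a S
    unfold En at h3
    omega
  have hcol : ∀ b (T : Finset V), (∀ a ∈ T, b ∈ U a ∧ b ∉ B a) →
      ∃ T' : Finset V, T.card ≤ T'.card ∧
        ∀ z ∈ T', (∀ a, R a z → b ∈ U a) ∧ ∃ a ∈ T, R a z := by
    intro b T hT
    have hTC : ∀ a ∈ T, a ∉ C b := by
      intro a ha
      obtain ⟨h1, h2⟩ := hT a ha
      rcases memU.1 h1 with h3 | h3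
      · subst h3
        exact absurd (h.memB _ _ (hR _)) h2
      · exact h3
    have ho : Outer R B (Function.update C b (C b ∪ T)) := by
      refine ⟨h.memB, ?_, ?_⟩
      · intro a' y hy
        by_cases ha : a' = b
        · subst ha
          rw [Function.update_self]
          exact Finset.mem_union_left _ (h.memC _ _ hy)
        · rw [Function.update_of_ne ha]
          exact h.memC _ _ hy
      · intro a b' hb hab
        by_cases hb' : b' = b
        · subst hb'
          rw [Function.update_self] at hab
          rcases Finset.mem_union.1 hab with h3 | h3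
          · exact h.comp _ _ hb h3
          · exact absurd hb (hT a h3).2
        · rw [Function.update_of_ne hb'] at hab
          exact h.comp _ _ hb hab
    have h3 := hmin _ _ ho
    have h4 := sum_update (c R) C b (C b ∪ T)
    have h5 : c R (C b) ≤ c R (C b ∪ T) := by
      unfold En at h3
      omega
    refine ⟨Nb R T \ Nb R (C b), ?_, ?_⟩
    · have h6 := card_Nb hR (C b)
      have h7 := card_Nb hR (C b ∪ T)
      have h8 : (C b ∪ T).card = (C b).card + T.card :=
        Finset.card_union_of_disjoint (Finset.disjoint_right.2 fun a ha => hTC a ha)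
      have h9 : Nb R (C b ∪ T) ⊆ Nb R (C b) ∪ (Nb R T \ Nb R (C b)) := by
        intro y hy
        obtain ⟨x, hx, hxy⟩ := mem_Nb.1 hy
        by_cases hyC : y ∈ Nb R (C b)
        · exact Finset.mem_union_left _ hyC
        · rcases Finset.mem_union.1 hx with hx | hx
          · exact absurd (mem_Nb.2 ⟨x, hx, hxy⟩) hyC
          · exact Finset.mem_union_right _ (Finset.mem_sdiff.2 ⟨mem_Nb.2 ⟨x, hx, hxy⟩, hyC⟩)
      have h10 := (Finset.card_le_card h9).trans (Finset.card_union_le _ _)
      omega
    · intro z hz
      obtain ⟨h6, h7⟩ := Finset.mem_sdiff.1 hz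
      refine ⟨fun a ha => memU.2 (Or.inr fun hc => h7 (mem_Nb.2 ⟨a, hc, ha⟩)), ?_⟩
      exact mem_Nb.1 h6
  have hstar := star hR hLU hrow hcol
  -- pair counts
  have count : ∀ F : V → Finset V, ∑ a, (F a).card =
      ∑ b, (Finset.univ.filter fun a => b ∈ F a).card := by
    intro F
    have : ∀ a, (F a).card = ∑ b, if b ∈ F a then 1 else 0 := by
      intro a
      simp
    simp_rw [this, Finset.card_filter]
    exact Finset.sum_comm
  have hc : ∀ F : V → Finset V, ∑ a, (Nb R (F a)).card = ∑ a, (F a).card + ∑ a, c R (F a) := by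
    intro F
    rw [← Finset.sum_add_distrib]
    exact Finset.sum_congr rfl fun a _ => card_Nb hR (F a)
  -- column inequalities
  have i1 : ∀ b, (Finset.univ.filter fun a => b ∈ U a).card ≤
      (Finset.univ.filter fun a => b ∈ Er R U a).card + c R (C b) := by
    intro b
    have hsub : (Finset.univ.filter fun a => b ∈ U a) ⊆
        (Finset.univ.filter fun a => b ∈ Er R U a) ∪ (Nb R (C b) \ C b) := by
      intro z hz
      have hz' : b ∈ U z := (Finset.mem_filter.1 hz).2
      by_cases hE : b ∈ Er R U z
      · exact Finset.mem_union_left _ (Finset.mem_filter.2 ⟨Finset.mem_univ _, hE⟩)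
      · refine Finset.mem_union_right _ ?_
        rw [mem_Er] at hE
        push Not at hE
        obtain ⟨a, haz, hab⟩ := hE
        rw [memU] at hab
        push Not at hab
        obtain ⟨hne, haC⟩ := hab
        have hzb : z ≠ b := by
          rintro rfl
          exact hne (h.comp a z (h.memB a z haz) haC).symm
        have hzC : z ∉ C b := by
          rcases memU.1 hz' with h3 | h3
          · exact absurd h3.symm hzb
          · exact h3
        exact Finset.mem_sdiff.2 ⟨mem_Nb.2 ⟨a, haC, haz⟩, hzC⟩
    have := (Finset.card_le_card hsub).trans (Finset.card_union_le _ _)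
    have hcc : c R (C b) = (Nb R (C b) \ C b).card := by unfold c; congr
    omega
  have i2 : ∀ b, c R (Er R C b) + (Finset.univ.filter fun a => b ∈ Nb R (Er R U a)).card ≤
      (Finset.univ.filter fun a => b ∈ Nb R (U a)).card := by
    intro b
    have hcc : c R (Er R C b) = (Nb R (Er R C b) \ Er R C b).card := by unfold c; congr
    rw [hcc, ← Finset.card_union_of_disjoint]
    · refine Finset.card_le_card ?_
      intro z hz
      refine Finset.mem_filter.2 ⟨Finset.mem_univ _, ?_⟩
      rcases Finset.mem_union.1 hz with h1 | h1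
      · obtain ⟨_, h3⟩ := Finset.mem_sdiff.1 h1
        rw [mem_Er] at h3
        push Not at h3
        obtain ⟨y, hyb, hzy⟩ := h3
        exact mem_Nb.2 ⟨y, memU.2 (Or.inr hzy), hyb⟩
      · exact Nb_mono (Er_sub (hR z)) (Finset.mem_filter.1 h1).2
    · rw [Finset.disjoint_left]
      intro z hz hz2
      obtain ⟨h2, h3⟩ := Finset.mem_sdiff.1 hz
      obtain ⟨d, hd, hdz⟩ := mem_Nb.1 h2
      obtain ⟨x, hx, hxb⟩ := mem_Nb.1 (Finset.mem_filter.1 hz2).2
      have h4 : d ∈ C x := mem_Er.1 hd x hxb
      have h5 : x = d := by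
        rcases memU.1 (Er_sub hdz hx) with h6 | h6
        · exact h6
        · exact absurd h4 h6
      subst h5
      have h6 : x ∈ C b := mem_Er.1 hd b (hR b)
      have h7 : x = b := h.comp x b (h.memB x b hxb) h6
      subst h7
      -- `x ∈ U z` and `R x z`
      have h8 : z ∈ C x := h.memC x z hdz
      rcases memU.1 (Er_sub (hR z) hx) with h9 | h9
      · subst h9
        exact h3 hd
      · exact h9 h8
  have s1 := Finset.sum_le_sum fun b (_ : b ∈ (Finset.univ : Finset V)) => i1 b
  have s2 := Finset.sum_le_sum fun b (_ : b ∈ (Finset.univ : Finset V)) => i2 b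
  rw [Finset.sum_add_distrib] at s1 s2
  rw [← count U, ← count (Er R U)] at s1
  rw [← count (fun a => Nb R (Er R U a)), ← count (fun a => Nb R (U a)), hc U, hc (Er R U)] at s2
  unfold En
  omega

end Vale.Agent.P038.H108
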