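import Vale.Agent.P038.Defs

/-!
# Closed neighbourhoods, the cut function and the inequality (STAR)

`R` is a reflexive relation on a finite type, `Nb R X` the set of all `y` with `R x y` for some
`x ∈ X`, `c R X` the number of elements of `Nb R X \ X`.
-/

namespace Vale.Agent.P038.H108

open Finset

variable {V : Type*} [Fintype V]

open Classical in
/-- Closed neighbourhood of a set. -/
noncomputable def Nb (R : V → V → Prop) (X : Finset V) : Finset V :=
  Finset.univ.filter fun y => ∃ x ∈ X, R x y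

open Classical in
/-- The cut function. -/
noncomputable def c (R : V → V → Prop) (X : Finset V) : ℕ := (Nb R X \ X).card

theorem mem_Nb {R : V → V → Prop} {X : Finset V} {y : V} : y ∈ Nb R X ↔ ∃ x ∈ X, R x y := by
  classical
  simp [Nb]

theorem Nb_mono {R : V → V → Prop} {X Y : Finset V} (h : X ⊆ Y) : Nb R X ⊆ Nb R Y := by
  intro y hy
  obtain ⟨x, hx, hxy⟩ := mem_Nb.1 hy
  exact mem_Nb.2 ⟨x, h hx, hxy⟩

theorem sub_Nb {R : V → V → Prop} (hR : ∀ x, R x x) (X : Finset V) : X ⊆ Nb R X :=
  fun x hx => mem_Nb.2 ⟨x, hx, hR x⟩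

theorem card_Nb {R : V → V → Prop} (hR : ∀ x, R x x) (X : Finset V) :
    (Nb R X).card = X.card + c R X := by
  classical
  have h := Finset.card_sdiff_add_card_eq_card (sub_Nb hR X)
  have : c R X = (Nb R X \ X).card := by unfold c; congr
  omega

theorem submod [DecidableEq V] {R : V → V → Prop} (hR : ∀ x, R x x) (X Y : Finset V) :
    c R (X ∪ Y) + c R (X ∩ Y) ≤ c R X + c R Y := by
  classical
  have h1 := card_Nb hR X
  have h2 := card_Nb hR Y
  have h3 := card_Nb hR (X ∪ Y)
  have h4 := card_Nb hR (X ∩ Y)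
  have h5 : Nb R (X ∪ Y) ⊆ Nb R X ∪ Nb R Y := by
    intro y hy
    obtain ⟨x, hx, hxy⟩ := mem_Nb.1 hy
    rcases Finset.mem_union.1 hx with h | h
    · exact Finset.mem_union_left _ (mem_Nb.2 ⟨x, h, hxy⟩)
    · exact Finset.mem_union_right _ (mem_Nb.2 ⟨x, h, hxy⟩)
  have h6 : Nb R (X ∩ Y) ⊆ Nb R X ∩ Nb R Y :=
    Finset.subset_inter (Nb_mono Finset.inter_subset_left) (Nb_mono Finset.inter_subset_right)
  have h7 := Finset.card_le_card h5
  have h8 := Finset.card_le_card h6
  have h9 := Finset.card_union_add_card_inter (Nb R X) (Nb R Y)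
  have h10 := Finset.card_union_add_card_inter X Y
  omega

/-- The least value of the cut function between two sets. -/
noncomputable def cW (R : V → V → Prop) (W X : Finset V) : ℕ :=
  sInf {n | ∃ T : Finset V, X ⊆ T ∧ T ⊆ W ∧ c R T = n}

theorem cW_mem {R : V → V → Prop} {W X : Finset V} (h : X ⊆ W) :
    ∃ T : Finset V, X ⊆ T ∧ T ⊆ W ∧ c R T = cW R W X :=
  Nat.sInf_mem (s := {n | ∃ T : Finset V, X ⊆ T ∧ T ⊆ W ∧ c R T = n}) ⟨c R X, X, subset_rfl, h, rfl⟩

theorem cW_le {R : V → V → Prop} {W X T : Finset V} (h1 : X ⊆ T) (h2 : T ⊆ W) :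
    cW R W X ≤ c R T := Nat.sInf_le ⟨T, h1, h2, rfl⟩

theorem cW_mono {R : V → V → Prop} {W X Y : Finset V} (h1 : X ⊆ Y) (h2 : Y ⊆ W) :
    cW R W X ≤ cW R W Y := by
  obtain ⟨T, hT1, hT2, hT3⟩ := cW_mem (R := R) h2
  rw [← hT3]
  exact cW_le (h1.trans hT1) hT2

theorem cW_self (R : V → V → Prop) (W : Finset V) : cW R W W = c R W := by
  obtain ⟨T, hT1, hT2, hT3⟩ := cW_mem (R := R) (subset_refl W)
  rw [← hT3, Finset.Subset.antisymm hT2 hT1]

theorem cW_marg [DecidableEq V] {R : V → V → Prop} (hR : ∀ x, R x x) {W W' X X' : Finset V} {b : V}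
    (h1 : X' ⊆ X) (h2 : X ⊆ W) (h3 : X' ⊆ W') (h4 : W' ⊆ W) (h5 : b ∈ W') :
    cW R W (insert b X) + cW R W' X' ≤ cW R W' (insert b X') + cW R W X := by
  obtain ⟨T', a1, a2, a3⟩ := cW_mem (R := R) (Finset.insert_subset h5 h3)
  obtain ⟨T, b1, b2, b3⟩ := cW_mem (R := R) h2
  have e1 : cW R W (insert b X) ≤ c R (T ∪ T') := by
    refine cW_le ?_ (Finset.union_subset b2 (a2.trans h4))
    refine Finset.insert_subset ?_ (b1.trans Finset.subset_union_left)
    exact Finset.mem_union_right _ (a1 (Finset.mem_insert_self _ _))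
  have e2 : cW R W' X' ≤ c R (T ∩ T') := by
    refine cW_le (Finset.subset_inter (h1.trans b1) ?_) (Finset.inter_subset_right.trans a2)
    exact (Finset.subset_insert _ _).trans a1
  have e3 := submod hR T T'
  omega

/-- Comparison of sums from comparison of level sets. -/
theorem sum_le_of_levels (f g : V → ℕ)
    (h : ∀ s, (Finset.univ.filter fun a => s < f a).card ≤
      (Finset.univ.filter fun z => s < g z).card) : ∑ a, f a ≤ ∑ z, g z := by
  classical
  obtain ⟨M, hM⟩ : ∃ M, ∀ a, f a ≤ M ∧ g a ≤ M :=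
    ⟨∑ a, f a + ∑ a, g a, fun a =>
      ⟨(Finset.single_le_sum (fun _ _ => Nat.zero_le _) (Finset.mem_univ a)).trans
        (Nat.le_add_right _ _),
       (Finset.single_le_sum (fun _ _ => Nat.zero_le _) (Finset.mem_univ a)).trans
        (Nat.le_add_left _ _)⟩⟩
  have key : ∀ f : V → ℕ, (∀ a, f a ≤ M) →
      ∑ a, f a = ∑ s ∈ Finset.range M, (Finset.univ.filter fun a => s < f a).card := by
    intro f hf
    simp_rw [Finset.card_filter]
    rw [Finset.sum_comm]
    refine Finset.sum_congr rfl fun a _ => ?_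
    rw [← Finset.card_filter]
    have : (Finset.range M).filter (fun s => s < f a) = Finset.range (f a) := by
      ext s
      simp only [Finset.mem_filter, Finset.mem_range]
      have := hf a
      omega
    rw [this, Finset.card_range]
  rw [key f fun a => (hM a).1, key g fun a => (hM a).2]
  exact Finset.sum_le_sum fun s _ => h s

open Classical in
/-- Rows intersected over the closed in-neighbourhood. -/
noncomputable def Er (R : V → V → Prop) (L : V → Finset V) (z : V) : Finset V :=
  Finset.univ.filter fun x => ∀ a, R a z → x ∈ L a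

theorem mem_Er {R : V → V → Prop} {L : V → Finset V} {z x : V} :
    x ∈ Er R L z ↔ ∀ a, R a z → x ∈ L a := by
  classical
  simp [Er]

theorem Er_sub {R : V → V → Prop} {L : V → Finset V} {a z : V} (h : R a z) : Er R L z ⊆ L a :=
  fun _ hx => mem_Er.1 hx a h

theorem row' [DecidableEq V] {R : V → V → Prop} (hR : ∀ x, R x x) {L U : V → Finset V}
    (hrow : ∀ a S, L a ⊆ S → S ⊆ U a → c R (L a) ≤ c R S) (hLU : ∀ a, L a ⊆ U a) (z : V)
    {S : Finset V} (h1 : Er R L z ⊆ S) (h2 : S ⊆ Er R U z) : c R (Er R L z) ≤ c R S := by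
  classical
  have key : ∀ Q : Finset V, (∀ a ∈ Q, R a z) →
      c R (S.filter fun x => ∀ a ∈ Q, x ∈ L a) ≤ c R S := by
    intro Q
    induction Q using Finset.induction_on with
    | empty => intro _; simp
    | insert a Q ha ih =>
      intro hQ
      have h3 := ih fun a' ha' => hQ a' (Finset.mem_insert_of_mem ha')
      have hRa := hQ a (Finset.mem_insert_self _ _)
      set S' := S.filter fun x => ∀ a ∈ Q, x ∈ L a with hS'
      have h4 : (S.filter fun x => ∀ a' ∈ insert a Q, x ∈ L a') = S' ∩ L a := by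
        ext x
        simp only [hS', Finset.mem_filter, Finset.mem_insert, Finset.mem_inter]
        constructor
        · rintro ⟨p, q⟩
          exact ⟨⟨p, fun a' h => q a' (Or.inr h)⟩, q a (Or.inl rfl)⟩
        · rintro ⟨⟨p, q⟩, r⟩
          refine ⟨p, fun a' h => ?_⟩
          rcases h with rfl | h
          · exact r
          · exact q a' h
      rw [h4]
      have h5 := submod hR S' (L a)
      have h6 : c R (L a) ≤ c R (S' ∪ L a) := by
        refine hrow a _ Finset.subset_union_right (Finset.union_subset ?_ (hLU a))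
        intro x hx
        exact Er_sub hRa (h2 (Finset.mem_filter.1 hx).1)
      omega
  have h3 := key (Finset.univ.filter fun a => R a z) (by simp)
  have h4 : (S.filter fun x => ∀ a ∈ (Finset.univ.filter fun a => R a z), x ∈ L a) = Er R L z := by
    ext x
    simp only [Finset.mem_filter, Finset.mem_univ, true_and, mem_Er]
    constructor
    · rintro ⟨_, q⟩
      exact q
    · intro q
      exact ⟨h1 (mem_Er.2 q), q⟩
  rwa [h4] at h3

/-- The inequality (STAR). -/
theorem star [DecidableEq V] {R : V → V → Prop} (hR : ∀ x, R x x) {L U : V → Finset V}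
    (hLU : ∀ a, L a ⊆ U a)
    (hrow : ∀ a S, L a ⊆ S → S ⊆ U a → c R (L a) ≤ c R S)
    (hcol : ∀ b (T : Finset V), (∀ a ∈ T, b ∈ U a ∧ b ∉ L a) →
      ∃ T' : Finset V, T.card ≤ T'.card ∧
        ∀ z ∈ T', (∀ a, R a z → b ∈ U a) ∧ ∃ a ∈ T, R a z) :
    ∑ a, c R (U a) + ∑ z, c R (Er R L z) ≤ ∑ z, c R (Er R U z) + ∑ a, c R (L a) := by
  classical
  -- the functions along a growing set `K`
  have hLU' : ∀ z, Er R L z ⊆ Er R U z := fun z x hx =>
    mem_Er.2 fun a ha => hLU a (mem_Er.1 hx a ha)
  have hgs : ∀ (L U : V → Finset V), (∀ a, L a ⊆ U a) → ∀ a (K : Finset V),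
      L a ∪ (U a ∩ K) ⊆ U a := fun L U h a K =>
    Finset.union_subset (h a) Finset.inter_subset_left
  have step : ∀ K : Finset V,
      ∑ a, cW R (U a) (L a ∪ (U a ∩ K)) + ∑ z, cW R (Er R U z) (Er R L z) ≤
      ∑ z, cW R (Er R U z) (Er R L z ∪ (Er R U z ∩ K)) + ∑ a, cW R (U a) (L a) := by
    intro K
    induction K using Finset.induction_on with
    | empty => simp; omega
    | insert b K hb ih =>
      -- marginals
      have hmono : ∀ (L U : V → Finset V), (∀ a, L a ⊆ U a) → ∀ a,
          cW R (U a) (L a ∪ (U a ∩ K)) ≤ cW R (U a) (L a ∪ (U a ∩ insert b K)) := by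
        intro L U h a
        refine cW_mono ?_ (hgs L U h a _)
        exact Finset.union_subset_union subset_rfl
          (Finset.inter_subset_inter subset_rfl (Finset.subset_insert _ _))
      have hzero : ∀ a, ¬ (b ∈ U a ∧ b ∉ L a) →
          L a ∪ (U a ∩ insert b K) = L a ∪ (U a ∩ K) := by
        intro a ha
        ext x
        simp only [Finset.mem_union, Finset.mem_inter, Finset.mem_insert]
        constructor
        · rintro (h | ⟨h1, rfl | h2⟩)
          · exact Or.inl h
          · left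
            by_contra hc
            exact ha ⟨h1, hc⟩
          · exact Or.inr ⟨h1, h2⟩
        · rintro (h | ⟨h1, h2⟩)
          · exact Or.inl h
          · exact Or.inr ⟨h1, Or.inr h2⟩
      have hins : ∀ (L U : V → Finset V) a, b ∈ U a →
          L a ∪ (U a ∩ insert b K) = insert b (L a ∪ (U a ∩ K)) := by
        intro L U a ha
        ext x
        simp only [Finset.mem_union, Finset.mem_inter, Finset.mem_insert]
        constructor
        · rintro (h | ⟨h1, rfl | h2⟩)
          · exact Or.inr (Or.inl h)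
          · exact Or.inl rfl
          · exact Or.inr (Or.inr ⟨h1, h2⟩)
        · rintro (rfl | h | ⟨h1, h2⟩)
          · exact Or.inr ⟨ha, Or.inl rfl⟩
          · exact Or.inl h
          · exact Or.inr ⟨h1, Or.inr h2⟩
      have hcomp : ∀ a z, R a z → b ∈ Er R U z →
          cW R (U a) (L a ∪ (U a ∩ insert b K)) +
            cW R (Er R U z) (Er R L z ∪ (Er R U z ∩ K)) ≤
          cW R (Er R U z) (Er R L z ∪ (Er R U z ∩ insert b K)) +
            cW R (U a) (L a ∪ (U a ∩ K)) := by
        intro a z haz hbz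
        rw [hins L U a (Er_sub haz hbz), hins (Er R L) (Er R U) z hbz]
        refine cW_marg hR ?_ (hgs L U hLU a K) (hgs (Er R L) (Er R U) hLU' z K) (Er_sub haz) hbz
        exact Finset.union_subset_union (Er_sub haz)
          (Finset.inter_subset_inter (Er_sub haz) subset_rfl)
      have hsum := sum_le_of_levels
        (fun a => cW R (U a) (L a ∪ (U a ∩ insert b K)) - cW R (U a) (L a ∪ (U a ∩ K)))
        (fun z => cW R (Er R U z) (Er R L z ∪ (Er R U z ∩ insert b K)) -
          cW R (Er R U z) (Er R L z ∪ (Er R U z ∩ K))) (by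
        intro s
        obtain ⟨T', h1, h2⟩ := hcol b (Finset.univ.filter fun a =>
          s < cW R (U a) (L a ∪ (U a ∩ insert b K)) - cW R (U a) (L a ∪ (U a ∩ K))) (by
          intro a ha
          have ha' := (Finset.mem_filter.1 ha).2
          by_contra hc
          rw [hzero a hc] at ha'
          omega)
        refine h1.trans (Finset.card_le_card ?_)
        intro z hz
        obtain ⟨h3, a, ha, haz⟩ := h2 z hz
        have ha' := (Finset.mem_filter.1 ha).2
        have h4 := hcomp a z haz (mem_Er.2 h3)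
        refine Finset.mem_filter.2 ⟨Finset.mem_univ _, ?_⟩
        omega)
      have e1 : ∑ a, (cW R (U a) (L a ∪ (U a ∩ insert b K)) - cW R (U a) (L a ∪ (U a ∩ K))) +
          ∑ a, cW R (U a) (L a ∪ (U a ∩ K)) =
          ∑ a, cW R (U a) (L a ∪ (U a ∩ insert b K)) := by
        rw [← Finset.sum_add_distrib]
        exact Finset.sum_congr rfl fun a _ => Nat.sub_add_cancel (hmono L U hLU a)
      have e2 : ∑ z, (cW R (Er R U z) (Er R L z ∪ (Er R U z ∩ insert b K)) -
            cW R (Er R U z) (Er R L z ∪ (Er R U z ∩ K))) +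
          ∑ z, cW R (Er R U z) (Er R L z ∪ (Er R U z ∩ K)) =
          ∑ z, cW R (Er R U z) (Er R L z ∪ (Er R U z ∩ insert b K)) := by
        rw [← Finset.sum_add_distrib]
        exact Finset.sum_congr rfl fun z _ =>
          Nat.sub_add_cancel (hmono (Er R L) (Er R U) hLU' z)
      omega
  have h := step Finset.univ
  have t1 : ∀ a, cW R (U a) (L a ∪ (U a ∩ Finset.univ)) = c R (U a) := by
    intro a
    rw [Finset.inter_univ, Finset.union_eq_right.2 (hLU a), cW_self]
  have t2 : ∀ z, cW R (Er R U z) (Er R L z ∪ (Er R U z ∩ Finset.univ)) = c R (Er R U z) := by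
    intro z
    rw [Finset.inter_univ, Finset.union_eq_right.2 (hLU' z), cW_self]
  have t3 : ∀ a, cW R (U a) (L a) = c R (L a) := by
    intro a
    obtain ⟨T, h1, h2, h3⟩ := cW_mem (R := R) (hLU a)
    exact le_antisymm (cW_le subset_rfl (hLU a)) (h3 ▸ hrow a T h1 h2)
  have t4 : ∀ z, cW R (Er R U z) (Er R L z) = c R (Er R L z) := by
    intro z
    obtain ⟨T, h1, h2, h3⟩ := cW_mem (R := R) (hLU' z)
    exact le_antisymm (cW_le subset_rfl (hLU' z)) (h3 ▸ row' hR hrow hLU z h1 h2)
  simp only [t1, t2, t3, t4] at h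
  exact h

end Vale.Agent.P038.H108
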